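import Vale.Agent.P013.Top.Main

namespace Vale.Agent.Results.P013.DeficientRange

open Finset

theorem result :
    (∀ δ η : ℝ, 0 < δ → 0 < η → ∃ c : ℝ, 0 < c ∧ ∃ C : ℝ, ∀ k n : ℕ,
      n ≠ 0 → n.primeFactors.card ≤ k →
      (1 + η) * δ ≤ ∏ p ∈ n.primeFactors.filter (fun p : ℕ => (k : ℝ) ^ δ ≤ (p : ℝ) ∧ p < k),
        (1 - 1 / (p : ℝ)) →
      ∀ (a : ℤ) (L : ℕ), C * ((k : ℝ) + 1) ^ (2 - c) ≤ L →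
        ∃ x ∈ Ico a (a + L), Int.gcd x n = 1) ∧
    (∀ M : ℝ, ∃ c : ℝ, 0 < c ∧ ∃ C : ℝ, ∀ n : ℕ, n ≠ 0 →
      (n : ℝ) ≤ M * (Nat.totient n : ℝ) → ∀ (a : ℤ) (L : ℕ),
        C * ((n.primeFactors.card : ℝ) + 1) ^ (2 - c) ≤ L →
          ∃ x ∈ Ico a (a + L), Int.gcd x n = 1) :=
  ⟨Vale.Agent.P013.Top.deficient, Vale.Agent.P013.Top.bounded_ratio⟩

end Vale.Agent.Results.P013.DeficientRange
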