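import Vale.Agent.P013.Main

namespace Vale.Agent.Results.P013.LargePrimeFactors

open Finset

theorem result : ∃ k₀ : ℕ, ∀ k : ℕ, k₀ ≤ k → ∀ n : ℕ, n ≠ 0 → n.primeFactors.card ≤ k →
    (∀ p ∈ n.primeFactors, k ^ 3 < p ^ 10) → ∀ (a : ℤ) (L : ℕ), (k : ℝ) ^ (199 / 100 : ℝ) ≤ L →
      ∃ x ∈ Ico a (a + L), Int.gcd x n = 1 :=
  Vale.Agent.P013.short_interval

end Vale.Agent.Results.P013.LargePrimeFactors
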