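import Vale.Agent.P013.Top.Union

namespace Vale.Agent.Results.P013.SparseTop

open Finset

theorem result : ∀ ε η : ℝ, 0 < ε → 0 < η → ∃ θ : ℝ, 0 < θ ∧ ∃ C : ℝ, ∀ k n : ℕ,
    n ≠ 0 → n.primeFactors.card ≤ k →
    ∑ p ∈ n.primeFactors.filter (fun p : ℕ => (k : ℝ) ^ θ < (p : ℝ)), 1 / (p : ℝ) ≤ 1 - η →
    ∀ (a : ℤ) (L : ℕ), C * ((k : ℝ) + 1) ^ (1 + ε) ≤ L →
      ∃ x ∈ Ico a (a + L), Int.gcd x n = 1 :=
  Vale.Agent.P013.Top.sparse_top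

end Vale.Agent.Results.P013.SparseTop
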